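import Vale.Agent.P236JK.Eng

/-!
# P236JL / D : ranks of the monomials (generated)
-/

namespace Vale.Agent.P236JL.D

/-- byte number `F3 + 16 F4 + 64 F2` is the rank of `(F2, F3, F4)` -/
noncomputable def rk : Nat := (nat_lit 0x7b0000000000000000000000000000000000000000000000000000000000000000000000000000000000000000000000000000000000000000000000000000006f0000000000000000000000000000000000000000000000000000000000000000000000000000000000000000000000000000000000000000000000000000006300000000000000000000000000000000000000000000000000000000000000000000000000000000000000000000000000000000000000000000000000007e570000000000000000000000000000000000000000000000000000000000000000000000000000000000000000000000000000000000000000000000000000724e0000000000000000000000000000000000000000000000000000000000000000000000000000000000000000000000000000000000000000000000000000664500000000000000000000000000000000000000000000000000000000000000000000000000000000000000000000000000000000000000000000000000815a3c000000000000000000000000000000000000000000000000000000000000000000000000000000000000000000000000000000000000000000000000007551350000000000000000000000000000000000000000000000000000000000000000000000000000000000000000000000000000000000000000000000000069482e000000000000000000000000000000000000000000000000000000000000000000000000000000000000000000000000000000000000000000000000005d3f2700000000000000000000000000000000000000000000000000000000000000000000000000000000000000000000007a0000000000000000000000007753372100000000000000000000000000000000000000000000000000000000000000000000000000000000000000000000006e00000000000000000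00000006b4a301c0000000000000000000000000000000000000000000000000000000000000000000000000000000000000000000000620000000000000000000000005f412917000000000000000000000000000000000000000000000000000000000000000000000000000000000000000000007d560000000000000000000000795438221200000000000000000000000000000000000000000000000000000000000000000000000000000000000000000000714d00000000000000000000006d4b311d0f000000000000000000000000000000000000000000000000000000000000000000000000000000000000000000006544000000000000000000000061422a180c00000000000000000000000000000000000000000000000000000000000000000000000000000000000000000080593b000000000000000000007c553923130900000000000000000000000000000000000000000000000000000000000000000000000000000000000000000074503400000000000000000000704c321e100700000000000000000000000000000000000000000000000000000000000000000000000000000000000000000068472d0000000000000000000064432b190d050000000000000000000000000000000000000000000000000000000000000000000000000000000000000000005c3e260000000000000000007f583a24140a03000000000000000000000000000000000000000000000000000000000000007800000000000000000000000076523620000000000000000000734f331f110802000000000000000000000000000000000000000000000000000000000000006c0000000000000000000000006a492f1b00000000000000000067462c1a0e060100000000000000000000000000000000000000000000000000000000000000600000000000000000000000005e4028160000000000000000005b3d25150b0400)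

end Vale.Agent.P236JL.D
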