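import Vale.Agent.P236JL.D.A0x0

/-!
# P236JL / D : index of tables (generated)
-/

set_option maxRecDepth 100000

namespace Vale.Agent.P236JL.D

open Vale.Agent.P236KE Vale.Agent.P236JK

noncomputable def lo0 : MLL :=
  (MLL.cons a0_0 (MLL.cons a0_1 (MLL.cons a0_2 (MLL.cons a0_3 (MLL.cons a0_4 (MLL.cons a0_5
  (MLL.cons a0_6 (MLL.cons a0_7 (MLL.cons a0_8 (MLL.cons a0_9 (MLL.cons a0_10 (MLL.cons a0_11
  (MLL.cons a0_12 (MLL.cons a0_13 (MLL.cons a0_14 (MLL.cons a0_15 (MLL.cons a0_16 (MLL.cons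
  a0_17 (MLL.cons a0_18 (MLL.cons a0_19 (MLL.cons a0_20 (MLL.cons a0_21 (MLL.cons a0_22
  (MLL.cons a0_23 (MLL.cons a0_24 (MLL.cons a0_25 (MLL.cons a0_26 (MLL.cons a0_27 (MLL.cons
  a0_28 (MLL.cons a0_29 (MLL.cons a0_30 (MLL.cons a0_31 (MLL.cons a0_32 (MLL.cons a0_33
  (MLL.cons a0_34 (MLL.cons a0_35 (MLL.cons a0_36 (MLL.cons a0_37 (MLL.cons a0_38 (MLL.cons
  a0_39 (MLL.cons a0_40 (MLL.cons a0_41 (MLL.cons a0_42 (MLL.cons a0_43 (MLL.cons a0_44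
  (MLL.cons a0_45 (MLL.cons a0_46 (MLL.cons a0_47 (MLL.cons a0_48 (MLL.cons a0_49 (MLL.cons
  a0_50 (MLL.cons a0_51 (MLL.cons a0_52 (MLL.cons a0_53 (MLL.cons a0_54 (MLL.cons a0_55
  (MLL.cons a0_56 (MLL.cons a0_57 (MLL.cons a0_58 (MLL.cons a0_59 (MLL.cons a0_60 (MLL.cons
  a0_61 (MLL.cons a0_62 (MLL.cons a0_63 (MLL.cons a0_64 (MLL.cons a0_65 (MLL.cons a0_66
  (MLL.cons a0_67 (MLL.cons a0_68 (MLL.cons a0_69 (MLL.cons a0_70 (MLL.cons a0_71 (MLL.cons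
  a0_72 (MLL.cons a0_73 (MLL.cons a0_74 (MLL.cons a0_75 (MLL.cons a0_76 (MLL.cons a0_77
  (MLL.cons a0_78 (MLL.cons a0_79 (MLL.cons a0_80 (MLL.cons a0_81 (MLL.cons a0_82 (MLL.cons
  a0_83 (MLL.cons a0_84 (MLL.cons a0_85 (MLL.cons a0_86 (MLL.cons a0_87 (MLL.cons a0_88
  (MLL.cons a0_89 (MLL.cons a0_90
  MLL.nil)))))))))))))))))))))))))))))))))))))))))))))))))))))))))))))))))))))))))))))))))))))))))))

end Vale.Agent.P236JL.D
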