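import Vale.Agent.P236JL.D.A1x0

/-!
# P236JL / D : index of tables (generated)
-/

set_option maxRecDepth 100000

namespace Vale.Agent.P236JL.D

open Vale.Agent.P236KE Vale.Agent.P236JK

noncomputable def lo1 : MLL :=
  (MLL.cons a1_0 (MLL.cons a1_1 (MLL.cons a1_2 (MLL.cons a1_3 (MLL.cons a1_4 (MLL.cons a1_5
  (MLL.cons a1_6 (MLL.cons a1_7 (MLL.cons a1_8 (MLL.cons a1_9 (MLL.cons a1_10 (MLL.cons a1_11
  (MLL.cons a1_12 (MLL.cons a1_13 (MLL.cons a1_14 (MLL.cons a1_15 (MLL.cons a1_16 (MLL.cons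
  a1_17 (MLL.cons a1_18 (MLL.cons a1_19 (MLL.cons a1_20 (MLL.cons a1_21 (MLL.cons a1_22
  (MLL.cons a1_23 (MLL.cons a1_24 (MLL.cons a1_25 (MLL.cons a1_26 (MLL.cons a1_27 (MLL.cons
  a1_28 (MLL.cons a1_29 (MLL.cons a1_30 (MLL.cons a1_31 (MLL.cons a1_32 (MLL.cons a1_33
  (MLL.cons a1_34 (MLL.cons a1_35 (MLL.cons a1_36 (MLL.cons a1_37 (MLL.cons a1_38 (MLL.cons
  a1_39 (MLL.cons a1_40 (MLL.cons a1_41 (MLL.cons a1_42 (MLL.cons a1_43 (MLL.cons a1_44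
  (MLL.cons a1_45 (MLL.cons a1_46 (MLL.cons a1_47 (MLL.cons a1_48 (MLL.cons a1_49 (MLL.cons
  a1_50 (MLL.cons a1_51 (MLL.cons a1_52 (MLL.cons a1_53 (MLL.cons a1_54 (MLL.cons a1_55
  (MLL.cons a1_56 (MLL.cons a1_57 (MLL.cons a1_58 (MLL.cons a1_59 (MLL.cons a1_60 (MLL.cons
  a1_61 (MLL.cons a1_62 (MLL.cons a1_63 (MLL.cons a1_64 (MLL.cons a1_65 (MLL.cons a1_66
  (MLL.cons a1_67 (MLL.cons a1_68 (MLL.cons a1_69 (MLL.cons a1_70 (MLL.cons a1_71 (MLL.cons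
  a1_72 (MLL.cons a1_73 (MLL.cons a1_74 (MLL.cons a1_75 (MLL.cons a1_76 (MLL.cons a1_77
  (MLL.cons a1_78 (MLL.cons a1_79 (MLL.cons a1_80 (MLL.cons a1_81 (MLL.cons a1_82 (MLL.cons
  a1_83 (MLL.cons a1_84 (MLL.cons a1_85 (MLL.cons a1_86 (MLL.cons a1_87 (MLL.cons a1_88
  (MLL.cons a1_89 (MLL.cons a1_90
  MLL.nil)))))))))))))))))))))))))))))))))))))))))))))))))))))))))))))))))))))))))))))))))))))))))))

end Vale.Agent.P236JL.D
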