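import Vale.Agent.P236JL.D.A10x0

/-!
# P236JL / D : index of tables (generated)
-/

set_option maxRecDepth 100000

namespace Vale.Agent.P236JL.D

open Vale.Agent.P236KE Vale.Agent.P236JK

noncomputable def lo10 : MLL :=
  (MLL.cons a10_0 (MLL.cons a10_1 (MLL.cons a10_2 (MLL.cons a10_3 (MLL.cons a10_4 (MLL.cons
  a10_5 (MLL.cons a10_6 (MLL.cons a10_7 (MLL.cons a10_8 (MLL.cons a10_9 (MLL.cons a10_10
  (MLL.cons a10_11 (MLL.cons a10_12 (MLL.cons a10_13 (MLL.cons a10_14 (MLL.cons a10_15 (MLL.cons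
  a10_16 (MLL.cons a10_17 (MLL.cons a10_18 (MLL.cons a10_19 (MLL.cons a10_20 (MLL.cons a10_21
  (MLL.cons a10_22 (MLL.cons a10_23 (MLL.cons a10_24 (MLL.cons a10_25 (MLL.cons a10_26 (MLL.cons
  a10_27 (MLL.cons a10_28 (MLL.cons a10_29 (MLL.cons a10_30 (MLL.cons a10_31 (MLL.cons a10_32
  (MLL.cons a10_33 (MLL.cons a10_34 (MLL.cons a10_35 (MLL.cons a10_36 (MLL.cons a10_37 (MLL.cons
  a10_38 (MLL.cons a10_39 (MLL.cons a10_40 (MLL.cons a10_41 (MLL.cons a10_42 (MLL.cons a10_43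
  (MLL.cons a10_44 (MLL.cons a10_45 (MLL.cons a10_46 (MLL.cons a10_47 (MLL.cons a10_48 (MLL.cons
  a10_49 (MLL.cons a10_50 (MLL.cons a10_51 (MLL.cons a10_52 (MLL.cons a10_53 (MLL.cons a10_54
  (MLL.cons a10_55 (MLL.cons a10_56 (MLL.cons a10_57 (MLL.cons a10_58 (MLL.cons a10_59 (MLL.cons
  a10_60 (MLL.cons a10_61 (MLL.cons a10_62 (MLL.cons a10_63 (MLL.cons a10_64 (MLL.cons a10_65
  (MLL.cons a10_66 (MLL.cons a10_67 (MLL.cons a10_68 (MLL.cons a10_69 (MLL.cons a10_70 (MLL.cons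
  a10_71 (MLL.cons a10_72 (MLL.cons a10_73 (MLL.cons a10_74 (MLL.cons a10_75 (MLL.cons a10_76
  (MLL.cons a10_77 (MLL.cons a10_78 (MLL.cons a10_79 (MLL.cons a10_80 (MLL.cons a10_81 (MLL.cons
  a10_82 (MLL.cons a10_83 (MLL.cons a10_84 (MLL.cons a10_85 (MLL.cons a10_86 (MLL.cons a10_87
  (MLL.cons a10_88 (MLL.cons a10_89 (MLL.cons a10_90
  MLL.nil)))))))))))))))))))))))))))))))))))))))))))))))))))))))))))))))))))))))))))))))))))))))))))

end Vale.Agent.P236JL.D
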