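import Vale.Agent.P236JL.D.A11x0

/-!
# P236JL / D : index of tables (generated)
-/

set_option maxRecDepth 100000

namespace Vale.Agent.P236JL.D

open Vale.Agent.P236KE Vale.Agent.P236JK

noncomputable def lo11 : MLL :=
  (MLL.cons a11_0 (MLL.cons a11_1 (MLL.cons a11_2 (MLL.cons a11_3 (MLL.cons a11_4 (MLL.cons
  a11_5 (MLL.cons a11_6 (MLL.cons a11_7 (MLL.cons a11_8 (MLL.cons a11_9 (MLL.cons a11_10
  (MLL.cons a11_11 (MLL.cons a11_12 (MLL.cons a11_13 (MLL.cons a11_14 (MLL.cons a11_15 (MLL.cons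
  a11_16 (MLL.cons a11_17 (MLL.cons a11_18 (MLL.cons a11_19 (MLL.cons a11_20 (MLL.cons a11_21
  (MLL.cons a11_22 (MLL.cons a11_23 (MLL.cons a11_24 (MLL.cons a11_25 (MLL.cons a11_26 (MLL.cons
  a11_27 (MLL.cons a11_28 (MLL.cons a11_29 (MLL.cons a11_30 (MLL.cons a11_31 (MLL.cons a11_32
  (MLL.cons a11_33 (MLL.cons a11_34 (MLL.cons a11_35 (MLL.cons a11_36 (MLL.cons a11_37 (MLL.cons
  a11_38 (MLL.cons a11_39 (MLL.cons a11_40 (MLL.cons a11_41 (MLL.cons a11_42 (MLL.cons a11_43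
  (MLL.cons a11_44 (MLL.cons a11_45 (MLL.cons a11_46 (MLL.cons a11_47 (MLL.cons a11_48 (MLL.cons
  a11_49 (MLL.cons a11_50 (MLL.cons a11_51 (MLL.cons a11_52 (MLL.cons a11_53 (MLL.cons a11_54
  (MLL.cons a11_55 (MLL.cons a11_56 (MLL.cons a11_57 (MLL.cons a11_58 (MLL.cons a11_59 (MLL.cons
  a11_60 (MLL.cons a11_61 (MLL.cons a11_62 (MLL.cons a11_63 (MLL.cons a11_64 (MLL.cons a11_65
  (MLL.cons a11_66 (MLL.cons a11_67 (MLL.cons a11_68 (MLL.cons a11_69 (MLL.cons a11_70 (MLL.cons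
  a11_71 (MLL.cons a11_72 (MLL.cons a11_73 (MLL.cons a11_74 (MLL.cons a11_75 (MLL.cons a11_76
  (MLL.cons a11_77 (MLL.cons a11_78 (MLL.cons a11_79 (MLL.cons a11_80 (MLL.cons a11_81 (MLL.cons
  a11_82 (MLL.cons a11_83 (MLL.cons a11_84 (MLL.cons a11_85 (MLL.cons a11_86 (MLL.cons a11_87
  (MLL.cons a11_88 (MLL.cons a11_89 (MLL.cons a11_90
  MLL.nil)))))))))))))))))))))))))))))))))))))))))))))))))))))))))))))))))))))))))))))))))))))))))))

end Vale.Agent.P236JL.D
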