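import Vale.Agent.P236JL.D.A12x0

/-!
# P236JL / D : index of tables (generated)
-/

set_option maxRecDepth 100000

namespace Vale.Agent.P236JL.D

open Vale.Agent.P236KE Vale.Agent.P236JK

noncomputable def lo12 : MLL :=
  (MLL.cons a12_0 (MLL.cons a12_1 (MLL.cons a12_2 (MLL.cons a12_3 (MLL.cons a12_4 (MLL.cons
  a12_5 (MLL.cons a12_6 (MLL.cons a12_7 (MLL.cons a12_8 (MLL.cons a12_9 (MLL.cons a12_10
  (MLL.cons a12_11 (MLL.cons a12_12 (MLL.cons a12_13 (MLL.cons a12_14 (MLL.cons a12_15 (MLL.cons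
  a12_16 (MLL.cons a12_17 (MLL.cons a12_18 (MLL.cons a12_19 (MLL.cons a12_20 (MLL.cons a12_21
  (MLL.cons a12_22 (MLL.cons a12_23 (MLL.cons a12_24 (MLL.cons a12_25 (MLL.cons a12_26 (MLL.cons
  a12_27 (MLL.cons a12_28 (MLL.cons a12_29 (MLL.cons a12_30 (MLL.cons a12_31 (MLL.cons a12_32
  (MLL.cons a12_33 (MLL.cons a12_34 (MLL.cons a12_35 (MLL.cons a12_36 (MLL.cons a12_37 (MLL.cons
  a12_38 (MLL.cons a12_39 (MLL.cons a12_40 (MLL.cons a12_41 (MLL.cons a12_42 (MLL.cons a12_43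
  (MLL.cons a12_44 (MLL.cons a12_45 (MLL.cons a12_46 (MLL.cons a12_47 (MLL.cons a12_48 (MLL.cons
  a12_49 (MLL.cons a12_50 (MLL.cons a12_51 (MLL.cons a12_52 (MLL.cons a12_53 (MLL.cons a12_54
  (MLL.cons a12_55 (MLL.cons a12_56 (MLL.cons a12_57 (MLL.cons a12_58 (MLL.cons a12_59 (MLL.cons
  a12_60 (MLL.cons a12_61 (MLL.cons a12_62 (MLL.cons a12_63 (MLL.cons a12_64 (MLL.cons a12_65
  (MLL.cons a12_66 (MLL.cons a12_67 (MLL.cons a12_68 (MLL.cons a12_69 (MLL.cons a12_70 (MLL.cons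
  a12_71 (MLL.cons a12_72 (MLL.cons a12_73 (MLL.cons a12_74 (MLL.cons a12_75 (MLL.cons a12_76
  (MLL.cons a12_77 (MLL.cons a12_78 (MLL.cons a12_79 (MLL.cons a12_80 (MLL.cons a12_81 (MLL.cons
  a12_82 (MLL.cons a12_83 (MLL.cons a12_84 (MLL.cons a12_85 (MLL.cons a12_86 (MLL.cons a12_87
  (MLL.cons a12_88 (MLL.cons a12_89 (MLL.cons a12_90
  MLL.nil)))))))))))))))))))))))))))))))))))))))))))))))))))))))))))))))))))))))))))))))))))))))))))

end Vale.Agent.P236JL.D
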