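import Vale.Agent.P236JL.D.A14x0

/-!
# P236JL / D : index of tables (generated)
-/

set_option maxRecDepth 100000

namespace Vale.Agent.P236JL.D

open Vale.Agent.P236KE Vale.Agent.P236JK

noncomputable def lo14 : MLL :=
  (MLL.cons a14_0 (MLL.cons a14_1 (MLL.cons a14_2 (MLL.cons a14_3 (MLL.cons a14_4 (MLL.cons
  a14_5 (MLL.cons a14_6 (MLL.cons a14_7 (MLL.cons a14_8 (MLL.cons a14_9 (MLL.cons a14_10
  (MLL.cons a14_11 (MLL.cons a14_12 (MLL.cons a14_13 (MLL.cons a14_14 (MLL.cons a14_15 (MLL.cons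
  a14_16 (MLL.cons a14_17 (MLL.cons a14_18 (MLL.cons a14_19 (MLL.cons a14_20 (MLL.cons a14_21
  (MLL.cons a14_22 (MLL.cons a14_23 (MLL.cons a14_24 (MLL.cons a14_25 (MLL.cons a14_26 (MLL.cons
  a14_27 (MLL.cons a14_28 (MLL.cons a14_29 (MLL.cons a14_30 (MLL.cons a14_31 (MLL.cons a14_32
  (MLL.cons a14_33 (MLL.cons a14_34 (MLL.cons a14_35 (MLL.cons a14_36 (MLL.cons a14_37 (MLL.cons
  a14_38 (MLL.cons a14_39 (MLL.cons a14_40 (MLL.cons a14_41 (MLL.cons a14_42 (MLL.cons a14_43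
  (MLL.cons a14_44 (MLL.cons a14_45 (MLL.cons a14_46 (MLL.cons a14_47 (MLL.cons a14_48 (MLL.cons
  a14_49 (MLL.cons a14_50 (MLL.cons a14_51 (MLL.cons a14_52 (MLL.cons a14_53 (MLL.cons a14_54
  (MLL.cons a14_55 (MLL.cons a14_56 (MLL.cons a14_57 (MLL.cons a14_58 (MLL.cons a14_59 (MLL.cons
  a14_60 (MLL.cons a14_61 (MLL.cons a14_62 (MLL.cons a14_63 (MLL.cons a14_64 (MLL.cons a14_65
  (MLL.cons a14_66 (MLL.cons a14_67 (MLL.cons a14_68 (MLL.cons a14_69 (MLL.cons a14_70 (MLL.cons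
  a14_71 (MLL.cons a14_72 (MLL.cons a14_73 (MLL.cons a14_74 (MLL.cons a14_75 (MLL.cons a14_76
  (MLL.cons a14_77 (MLL.cons a14_78 (MLL.cons a14_79 (MLL.cons a14_80 (MLL.cons a14_81 (MLL.cons
  a14_82 (MLL.cons a14_83 (MLL.cons a14_84 (MLL.cons a14_85 (MLL.cons a14_86 (MLL.cons a14_87
  (MLL.cons a14_88 (MLL.cons a14_89 (MLL.cons a14_90
  MLL.nil)))))))))))))))))))))))))))))))))))))))))))))))))))))))))))))))))))))))))))))))))))))))))))

end Vale.Agent.P236JL.D
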