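import Vale.Agent.P236JL.D.A15x0

/-!
# P236JL / D : index of tables (generated)
-/

set_option maxRecDepth 100000

namespace Vale.Agent.P236JL.D

open Vale.Agent.P236KE Vale.Agent.P236JK

noncomputable def lo15 : MLL :=
  (MLL.cons a15_0 (MLL.cons a15_1 (MLL.cons a15_2 (MLL.cons a15_3 (MLL.cons a15_4 (MLL.cons
  a15_5 (MLL.cons a15_6 (MLL.cons a15_7 (MLL.cons a15_8 (MLL.cons a15_9 (MLL.cons a15_10
  (MLL.cons a15_11 (MLL.cons a15_12 (MLL.cons a15_13 (MLL.cons a15_14 (MLL.cons a15_15 (MLL.cons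
  a15_16 (MLL.cons a15_17 (MLL.cons a15_18 (MLL.cons a15_19 (MLL.cons a15_20 (MLL.cons a15_21
  (MLL.cons a15_22 (MLL.cons a15_23 (MLL.cons a15_24 (MLL.cons a15_25 (MLL.cons a15_26 (MLL.cons
  a15_27 (MLL.cons a15_28 (MLL.cons a15_29 (MLL.cons a15_30 (MLL.cons a15_31 (MLL.cons a15_32
  (MLL.cons a15_33 (MLL.cons a15_34 (MLL.cons a15_35 (MLL.cons a15_36 (MLL.cons a15_37 (MLL.cons
  a15_38 (MLL.cons a15_39 (MLL.cons a15_40 (MLL.cons a15_41 (MLL.cons a15_42 (MLL.cons a15_43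
  (MLL.cons a15_44 (MLL.cons a15_45 (MLL.cons a15_46 (MLL.cons a15_47 (MLL.cons a15_48 (MLL.cons
  a15_49 (MLL.cons a15_50 (MLL.cons a15_51 (MLL.cons a15_52 (MLL.cons a15_53 (MLL.cons a15_54
  (MLL.cons a15_55 (MLL.cons a15_56 (MLL.cons a15_57 (MLL.cons a15_58 (MLL.cons a15_59 (MLL.cons
  a15_60 (MLL.cons a15_61 (MLL.cons a15_62 (MLL.cons a15_63 (MLL.cons a15_64 (MLL.cons a15_65
  (MLL.cons a15_66 (MLL.cons a15_67 (MLL.cons a15_68 (MLL.cons a15_69 (MLL.cons a15_70 (MLL.cons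
  a15_71 (MLL.cons a15_72 (MLL.cons a15_73 (MLL.cons a15_74 (MLL.cons a15_75 (MLL.cons a15_76
  (MLL.cons a15_77 (MLL.cons a15_78 (MLL.cons a15_79 (MLL.cons a15_80 (MLL.cons a15_81 (MLL.cons
  a15_82 (MLL.cons a15_83 (MLL.cons a15_84 (MLL.cons a15_85 (MLL.cons a15_86 (MLL.cons a15_87
  (MLL.cons a15_88 (MLL.cons a15_89 (MLL.cons a15_90
  MLL.nil)))))))))))))))))))))))))))))))))))))))))))))))))))))))))))))))))))))))))))))))))))))))))))

end Vale.Agent.P236JL.D
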