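import Vale.Agent.P236JL.D.A16x0

/-!
# P236JL / D : index of tables (generated)
-/

set_option maxRecDepth 100000

namespace Vale.Agent.P236JL.D

open Vale.Agent.P236KE Vale.Agent.P236JK

noncomputable def lo16 : MLL :=
  (MLL.cons a16_0 (MLL.cons a16_1 (MLL.cons a16_2 (MLL.cons a16_3 (MLL.cons a16_4 (MLL.cons
  a16_5 (MLL.cons a16_6 (MLL.cons a16_7 (MLL.cons a16_8 (MLL.cons a16_9 (MLL.cons a16_10
  (MLL.cons a16_11 (MLL.cons a16_12 (MLL.cons a16_13 (MLL.cons a16_14 (MLL.cons a16_15 (MLL.cons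
  a16_16 (MLL.cons a16_17 (MLL.cons a16_18 (MLL.cons a16_19 (MLL.cons a16_20 (MLL.cons a16_21
  (MLL.cons a16_22 (MLL.cons a16_23 (MLL.cons a16_24 (MLL.cons a16_25 (MLL.cons a16_26 (MLL.cons
  a16_27 (MLL.cons a16_28 (MLL.cons a16_29 (MLL.cons a16_30 (MLL.cons a16_31 (MLL.cons a16_32
  (MLL.cons a16_33 (MLL.cons a16_34 (MLL.cons a16_35 (MLL.cons a16_36 (MLL.cons a16_37 (MLL.cons
  a16_38 (MLL.cons a16_39 (MLL.cons a16_40 (MLL.cons a16_41 (MLL.cons a16_42 (MLL.cons a16_43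
  (MLL.cons a16_44 (MLL.cons a16_45 (MLL.cons a16_46 (MLL.cons a16_47 (MLL.cons a16_48 (MLL.cons
  a16_49 (MLL.cons a16_50 (MLL.cons a16_51 (MLL.cons a16_52 (MLL.cons a16_53 (MLL.cons a16_54
  (MLL.cons a16_55 (MLL.cons a16_56 (MLL.cons a16_57 (MLL.cons a16_58 (MLL.cons a16_59 (MLL.cons
  a16_60 (MLL.cons a16_61 (MLL.cons a16_62 (MLL.cons a16_63 (MLL.cons a16_64 (MLL.cons a16_65
  (MLL.cons a16_66 (MLL.cons a16_67 (MLL.cons a16_68 (MLL.cons a16_69 (MLL.cons a16_70 (MLL.cons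
  a16_71 (MLL.cons a16_72 (MLL.cons a16_73 (MLL.cons a16_74 (MLL.cons a16_75 (MLL.cons a16_76
  (MLL.cons a16_77 (MLL.cons a16_78 (MLL.cons a16_79 (MLL.cons a16_80 (MLL.cons a16_81 (MLL.cons
  a16_82 (MLL.cons a16_83 (MLL.cons a16_84 (MLL.cons a16_85 (MLL.cons a16_86 (MLL.cons a16_87
  (MLL.cons a16_88 (MLL.cons a16_89 (MLL.cons a16_90
  MLL.nil)))))))))))))))))))))))))))))))))))))))))))))))))))))))))))))))))))))))))))))))))))))))))))

end Vale.Agent.P236JL.D
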