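import Vale.Agent.P236JL.D.A17x0

/-!
# P236JL / D : index of tables (generated)
-/

set_option maxRecDepth 100000

namespace Vale.Agent.P236JL.D

open Vale.Agent.P236KE Vale.Agent.P236JK

noncomputable def lo17 : MLL :=
  (MLL.cons a17_0 (MLL.cons a17_1 (MLL.cons a17_2 (MLL.cons a17_3 (MLL.cons a17_4 (MLL.cons
  a17_5 (MLL.cons a17_6 (MLL.cons a17_7 (MLL.cons a17_8 (MLL.cons a17_9 (MLL.cons a17_10
  (MLL.cons a17_11 (MLL.cons a17_12 (MLL.cons a17_13 (MLL.cons a17_14 (MLL.cons a17_15 (MLL.cons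
  a17_16 (MLL.cons a17_17 (MLL.cons a17_18 (MLL.cons a17_19 (MLL.cons a17_20 (MLL.cons a17_21
  (MLL.cons a17_22 (MLL.cons a17_23 (MLL.cons a17_24 (MLL.cons a17_25 (MLL.cons a17_26 (MLL.cons
  a17_27 (MLL.cons a17_28 (MLL.cons a17_29 (MLL.cons a17_30 (MLL.cons a17_31 (MLL.cons a17_32
  (MLL.cons a17_33 (MLL.cons a17_34 (MLL.cons a17_35 (MLL.cons a17_36 (MLL.cons a17_37 (MLL.cons
  a17_38 (MLL.cons a17_39 (MLL.cons a17_40 (MLL.cons a17_41 (MLL.cons a17_42 (MLL.cons a17_43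
  (MLL.cons a17_44 (MLL.cons a17_45 (MLL.cons a17_46 (MLL.cons a17_47 (MLL.cons a17_48 (MLL.cons
  a17_49 (MLL.cons a17_50 (MLL.cons a17_51 (MLL.cons a17_52 (MLL.cons a17_53 (MLL.cons a17_54
  (MLL.cons a17_55 (MLL.cons a17_56 (MLL.cons a17_57 (MLL.cons a17_58 (MLL.cons a17_59 (MLL.cons
  a17_60 (MLL.cons a17_61 (MLL.cons a17_62 (MLL.cons a17_63 (MLL.cons a17_64 (MLL.cons a17_65
  (MLL.cons a17_66 (MLL.cons a17_67 (MLL.cons a17_68 (MLL.cons a17_69 (MLL.cons a17_70 (MLL.cons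
  a17_71 (MLL.cons a17_72 (MLL.cons a17_73 (MLL.cons a17_74 (MLL.cons a17_75 (MLL.cons a17_76
  (MLL.cons a17_77 (MLL.cons a17_78 (MLL.cons a17_79 (MLL.cons a17_80 (MLL.cons a17_81 (MLL.cons
  a17_82 (MLL.cons a17_83 (MLL.cons a17_84 (MLL.cons a17_85 (MLL.cons a17_86 (MLL.cons a17_87
  (MLL.cons a17_88 (MLL.cons a17_89 (MLL.cons a17_90
  MLL.nil)))))))))))))))))))))))))))))))))))))))))))))))))))))))))))))))))))))))))))))))))))))))))))

end Vale.Agent.P236JL.D
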