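import Vale.Agent.P236JL.D.A18x0

/-!
# P236JL / D : index of tables (generated)
-/

set_option maxRecDepth 100000

namespace Vale.Agent.P236JL.D

open Vale.Agent.P236KE Vale.Agent.P236JK

noncomputable def lo18 : MLL :=
  (MLL.cons a18_0 (MLL.cons a18_1 (MLL.cons a18_2 (MLL.cons a18_3 (MLL.cons a18_4 (MLL.cons
  a18_5 (MLL.cons a18_6 (MLL.cons a18_7 (MLL.cons a18_8 (MLL.cons a18_9 (MLL.cons a18_10
  (MLL.cons a18_11 (MLL.cons a18_12 (MLL.cons a18_13 (MLL.cons a18_14 (MLL.cons a18_15 (MLL.cons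
  a18_16 (MLL.cons a18_17 (MLL.cons a18_18 (MLL.cons a18_19 (MLL.cons a18_20 (MLL.cons a18_21
  (MLL.cons a18_22 (MLL.cons a18_23 (MLL.cons a18_24 (MLL.cons a18_25 (MLL.cons a18_26 (MLL.cons
  a18_27 (MLL.cons a18_28 (MLL.cons a18_29 (MLL.cons a18_30 (MLL.cons a18_31 (MLL.cons a18_32
  (MLL.cons a18_33 (MLL.cons a18_34 (MLL.cons a18_35 (MLL.cons a18_36 (MLL.cons a18_37 (MLL.cons
  a18_38 (MLL.cons a18_39 (MLL.cons a18_40 (MLL.cons a18_41 (MLL.cons a18_42 (MLL.cons a18_43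
  (MLL.cons a18_44 (MLL.cons a18_45 (MLL.cons a18_46 (MLL.cons a18_47 (MLL.cons a18_48 (MLL.cons
  a18_49 (MLL.cons a18_50 (MLL.cons a18_51 (MLL.cons a18_52 (MLL.cons a18_53 (MLL.cons a18_54
  (MLL.cons a18_55 (MLL.cons a18_56 (MLL.cons a18_57 (MLL.cons a18_58 (MLL.cons a18_59 (MLL.cons
  a18_60 (MLL.cons a18_61 (MLL.cons a18_62 (MLL.cons a18_63 (MLL.cons a18_64 (MLL.cons a18_65
  (MLL.cons a18_66 (MLL.cons a18_67 (MLL.cons a18_68 (MLL.cons a18_69 (MLL.cons a18_70 (MLL.cons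
  a18_71 (MLL.cons a18_72 (MLL.cons a18_73 (MLL.cons a18_74 (MLL.cons a18_75 (MLL.cons a18_76
  (MLL.cons a18_77 (MLL.cons a18_78 (MLL.cons a18_79 (MLL.cons a18_80 (MLL.cons a18_81 (MLL.cons
  a18_82 (MLL.cons a18_83 (MLL.cons a18_84 (MLL.cons a18_85 (MLL.cons a18_86 (MLL.cons a18_87
  (MLL.cons a18_88 (MLL.cons a18_89 (MLL.cons a18_90
  MLL.nil)))))))))))))))))))))))))))))))))))))))))))))))))))))))))))))))))))))))))))))))))))))))))))

end Vale.Agent.P236JL.D
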