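import Vale.Agent.P236JL.D.A2x0

/-!
# P236JL / D : index of tables (generated)
-/

set_option maxRecDepth 100000

namespace Vale.Agent.P236JL.D

open Vale.Agent.P236KE Vale.Agent.P236JK

noncomputable def lo2 : MLL :=
  (MLL.cons a2_0 (MLL.cons a2_1 (MLL.cons a2_2 (MLL.cons a2_3 (MLL.cons a2_4 (MLL.cons a2_5
  (MLL.cons a2_6 (MLL.cons a2_7 (MLL.cons a2_8 (MLL.cons a2_9 (MLL.cons a2_10 (MLL.cons a2_11
  (MLL.cons a2_12 (MLL.cons a2_13 (MLL.cons a2_14 (MLL.cons a2_15 (MLL.cons a2_16 (MLL.cons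
  a2_17 (MLL.cons a2_18 (MLL.cons a2_19 (MLL.cons a2_20 (MLL.cons a2_21 (MLL.cons a2_22
  (MLL.cons a2_23 (MLL.cons a2_24 (MLL.cons a2_25 (MLL.cons a2_26 (MLL.cons a2_27 (MLL.cons
  a2_28 (MLL.cons a2_29 (MLL.cons a2_30 (MLL.cons a2_31 (MLL.cons a2_32 (MLL.cons a2_33
  (MLL.cons a2_34 (MLL.cons a2_35 (MLL.cons a2_36 (MLL.cons a2_37 (MLL.cons a2_38 (MLL.cons
  a2_39 (MLL.cons a2_40 (MLL.cons a2_41 (MLL.cons a2_42 (MLL.cons a2_43 (MLL.cons a2_44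
  (MLL.cons a2_45 (MLL.cons a2_46 (MLL.cons a2_47 (MLL.cons a2_48 (MLL.cons a2_49 (MLL.cons
  a2_50 (MLL.cons a2_51 (MLL.cons a2_52 (MLL.cons a2_53 (MLL.cons a2_54 (MLL.cons a2_55
  (MLL.cons a2_56 (MLL.cons a2_57 (MLL.cons a2_58 (MLL.cons a2_59 (MLL.cons a2_60 (MLL.cons
  a2_61 (MLL.cons a2_62 (MLL.cons a2_63 (MLL.cons a2_64 (MLL.cons a2_65 (MLL.cons a2_66
  (MLL.cons a2_67 (MLL.cons a2_68 (MLL.cons a2_69 (MLL.cons a2_70 (MLL.cons a2_71 (MLL.cons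
  a2_72 (MLL.cons a2_73 (MLL.cons a2_74 (MLL.cons a2_75 (MLL.cons a2_76 (MLL.cons a2_77
  (MLL.cons a2_78 (MLL.cons a2_79 (MLL.cons a2_80 (MLL.cons a2_81 (MLL.cons a2_82 (MLL.cons
  a2_83 (MLL.cons a2_84 (MLL.cons a2_85 (MLL.cons a2_86 (MLL.cons a2_87 (MLL.cons a2_88
  (MLL.cons a2_89 (MLL.cons a2_90
  MLL.nil)))))))))))))))))))))))))))))))))))))))))))))))))))))))))))))))))))))))))))))))))))))))))))

end Vale.Agent.P236JL.D
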