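import Vale.Agent.P236JL.D.A3x0

/-!
# P236JL / D : index of tables (generated)
-/

set_option maxRecDepth 100000

namespace Vale.Agent.P236JL.D

open Vale.Agent.P236KE Vale.Agent.P236JK

noncomputable def lo3 : MLL :=
  (MLL.cons a3_0 (MLL.cons a3_1 (MLL.cons a3_2 (MLL.cons a3_3 (MLL.cons a3_4 (MLL.cons a3_5
  (MLL.cons a3_6 (MLL.cons a3_7 (MLL.cons a3_8 (MLL.cons a3_9 (MLL.cons a3_10 (MLL.cons a3_11
  (MLL.cons a3_12 (MLL.cons a3_13 (MLL.cons a3_14 (MLL.cons a3_15 (MLL.cons a3_16 (MLL.cons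
  a3_17 (MLL.cons a3_18 (MLL.cons a3_19 (MLL.cons a3_20 (MLL.cons a3_21 (MLL.cons a3_22
  (MLL.cons a3_23 (MLL.cons a3_24 (MLL.cons a3_25 (MLL.cons a3_26 (MLL.cons a3_27 (MLL.cons
  a3_28 (MLL.cons a3_29 (MLL.cons a3_30 (MLL.cons a3_31 (MLL.cons a3_32 (MLL.cons a3_33
  (MLL.cons a3_34 (MLL.cons a3_35 (MLL.cons a3_36 (MLL.cons a3_37 (MLL.cons a3_38 (MLL.cons
  a3_39 (MLL.cons a3_40 (MLL.cons a3_41 (MLL.cons a3_42 (MLL.cons a3_43 (MLL.cons a3_44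
  (MLL.cons a3_45 (MLL.cons a3_46 (MLL.cons a3_47 (MLL.cons a3_48 (MLL.cons a3_49 (MLL.cons
  a3_50 (MLL.cons a3_51 (MLL.cons a3_52 (MLL.cons a3_53 (MLL.cons a3_54 (MLL.cons a3_55
  (MLL.cons a3_56 (MLL.cons a3_57 (MLL.cons a3_58 (MLL.cons a3_59 (MLL.cons a3_60 (MLL.cons
  a3_61 (MLL.cons a3_62 (MLL.cons a3_63 (MLL.cons a3_64 (MLL.cons a3_65 (MLL.cons a3_66
  (MLL.cons a3_67 (MLL.cons a3_68 (MLL.cons a3_69 (MLL.cons a3_70 (MLL.cons a3_71 (MLL.cons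
  a3_72 (MLL.cons a3_73 (MLL.cons a3_74 (MLL.cons a3_75 (MLL.cons a3_76 (MLL.cons a3_77
  (MLL.cons a3_78 (MLL.cons a3_79 (MLL.cons a3_80 (MLL.cons a3_81 (MLL.cons a3_82 (MLL.cons
  a3_83 (MLL.cons a3_84 (MLL.cons a3_85 (MLL.cons a3_86 (MLL.cons a3_87 (MLL.cons a3_88
  (MLL.cons a3_89 (MLL.cons a3_90
  MLL.nil)))))))))))))))))))))))))))))))))))))))))))))))))))))))))))))))))))))))))))))))))))))))))))

end Vale.Agent.P236JL.D
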