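import Vale.Agent.P236JL.D.A4x0
import Vale.Agent.P236JL.D.A4x1

/-!
# P236JL / D : index of tables (generated)
-/

set_option maxRecDepth 100000

namespace Vale.Agent.P236JL.D

open Vale.Agent.P236KE Vale.Agent.P236JK

noncomputable def lo4 : MLL :=
  (MLL.cons a4_0 (MLL.cons a4_1 (MLL.cons a4_2 (MLL.cons a4_3 (MLL.cons a4_4 (MLL.cons a4_5
  (MLL.cons a4_6 (MLL.cons a4_7 (MLL.cons a4_8 (MLL.cons a4_9 (MLL.cons a4_10 (MLL.cons a4_11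
  (MLL.cons a4_12 (MLL.cons a4_13 (MLL.cons a4_14 (MLL.cons a4_15 (MLL.cons a4_16 (MLL.cons
  a4_17 (MLL.cons a4_18 (MLL.cons a4_19 (MLL.cons a4_20 (MLL.cons a4_21 (MLL.cons a4_22
  (MLL.cons a4_23 (MLL.cons a4_24 (MLL.cons a4_25 (MLL.cons a4_26 (MLL.cons a4_27 (MLL.cons
  a4_28 (MLL.cons a4_29 (MLL.cons a4_30 (MLL.cons a4_31 (MLL.cons a4_32 (MLL.cons a4_33
  (MLL.cons a4_34 (MLL.cons a4_35 (MLL.cons a4_36 (MLL.cons a4_37 (MLL.cons a4_38 (MLL.cons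
  a4_39 (MLL.cons a4_40 (MLL.cons a4_41 (MLL.cons a4_42 (MLL.cons a4_43 (MLL.cons a4_44
  (MLL.cons a4_45 (MLL.cons a4_46 (MLL.cons a4_47 (MLL.cons a4_48 (MLL.cons a4_49 (MLL.cons
  a4_50 (MLL.cons a4_51 (MLL.cons a4_52 (MLL.cons a4_53 (MLL.cons a4_54 (MLL.cons a4_55
  (MLL.cons a4_56 (MLL.cons a4_57 (MLL.cons a4_58 (MLL.cons a4_59 (MLL.cons a4_60 (MLL.cons
  a4_61 (MLL.cons a4_62 (MLL.cons a4_63 (MLL.cons a4_64 (MLL.cons a4_65 (MLL.cons a4_66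
  (MLL.cons a4_67 (MLL.cons a4_68 (MLL.cons a4_69 (MLL.cons a4_70 (MLL.cons a4_71 (MLL.cons
  a4_72 (MLL.cons a4_73 (MLL.cons a4_74 (MLL.cons a4_75 (MLL.cons a4_76 (MLL.cons a4_77
  (MLL.cons a4_78 (MLL.cons a4_79 (MLL.cons a4_80 (MLL.cons a4_81 (MLL.cons a4_82 (MLL.cons
  a4_83 (MLL.cons a4_84 (MLL.cons a4_85 (MLL.cons a4_86 (MLL.cons a4_87 (MLL.cons a4_88
  (MLL.cons a4_89 (MLL.cons a4_90
  MLL.nil)))))))))))))))))))))))))))))))))))))))))))))))))))))))))))))))))))))))))))))))))))))))))))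

end Vale.Agent.P236JL.D
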