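import Vale.Agent.P236JL.D.A5x0
import Vale.Agent.P236JL.D.A5x1

/-!
# P236JL / D : index of tables (generated)
-/

set_option maxRecDepth 100000

namespace Vale.Agent.P236JL.D

open Vale.Agent.P236KE Vale.Agent.P236JK

noncomputable def lo5 : MLL :=
  (MLL.cons a5_0 (MLL.cons a5_1 (MLL.cons a5_2 (MLL.cons a5_3 (MLL.cons a5_4 (MLL.cons a5_5
  (MLL.cons a5_6 (MLL.cons a5_7 (MLL.cons a5_8 (MLL.cons a5_9 (MLL.cons a5_10 (MLL.cons a5_11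
  (MLL.cons a5_12 (MLL.cons a5_13 (MLL.cons a5_14 (MLL.cons a5_15 (MLL.cons a5_16 (MLL.cons
  a5_17 (MLL.cons a5_18 (MLL.cons a5_19 (MLL.cons a5_20 (MLL.cons a5_21 (MLL.cons a5_22
  (MLL.cons a5_23 (MLL.cons a5_24 (MLL.cons a5_25 (MLL.cons a5_26 (MLL.cons a5_27 (MLL.cons
  a5_28 (MLL.cons a5_29 (MLL.cons a5_30 (MLL.cons a5_31 (MLL.cons a5_32 (MLL.cons a5_33
  (MLL.cons a5_34 (MLL.cons a5_35 (MLL.cons a5_36 (MLL.cons a5_37 (MLL.cons a5_38 (MLL.cons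
  a5_39 (MLL.cons a5_40 (MLL.cons a5_41 (MLL.cons a5_42 (MLL.cons a5_43 (MLL.cons a5_44
  (MLL.cons a5_45 (MLL.cons a5_46 (MLL.cons a5_47 (MLL.cons a5_48 (MLL.cons a5_49 (MLL.cons
  a5_50 (MLL.cons a5_51 (MLL.cons a5_52 (MLL.cons a5_53 (MLL.cons a5_54 (MLL.cons a5_55
  (MLL.cons a5_56 (MLL.cons a5_57 (MLL.cons a5_58 (MLL.cons a5_59 (MLL.cons a5_60 (MLL.cons
  a5_61 (MLL.cons a5_62 (MLL.cons a5_63 (MLL.cons a5_64 (MLL.cons a5_65 (MLL.cons a5_66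
  (MLL.cons a5_67 (MLL.cons a5_68 (MLL.cons a5_69 (MLL.cons a5_70 (MLL.cons a5_71 (MLL.cons
  a5_72 (MLL.cons a5_73 (MLL.cons a5_74 (MLL.cons a5_75 (MLL.cons a5_76 (MLL.cons a5_77
  (MLL.cons a5_78 (MLL.cons a5_79 (MLL.cons a5_80 (MLL.cons a5_81 (MLL.cons a5_82 (MLL.cons
  a5_83 (MLL.cons a5_84 (MLL.cons a5_85 (MLL.cons a5_86 (MLL.cons a5_87 (MLL.cons a5_88
  (MLL.cons a5_89 (MLL.cons a5_90
  MLL.nil)))))))))))))))))))))))))))))))))))))))))))))))))))))))))))))))))))))))))))))))))))))))))))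

end Vale.Agent.P236JL.D
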