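import Vale.Agent.P236JL.D.A6x0

/-!
# P236JL / D : index of tables (generated)
-/

set_option maxRecDepth 100000

namespace Vale.Agent.P236JL.D

open Vale.Agent.P236KE Vale.Agent.P236JK

noncomputable def lo6 : MLL :=
  (MLL.cons a6_0 (MLL.cons a6_1 (MLL.cons a6_2 (MLL.cons a6_3 (MLL.cons a6_4 (MLL.cons a6_5
  (MLL.cons a6_6 (MLL.cons a6_7 (MLL.cons a6_8 (MLL.cons a6_9 (MLL.cons a6_10 (MLL.cons a6_11
  (MLL.cons a6_12 (MLL.cons a6_13 (MLL.cons a6_14 (MLL.cons a6_15 (MLL.cons a6_16 (MLL.cons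
  a6_17 (MLL.cons a6_18 (MLL.cons a6_19 (MLL.cons a6_20 (MLL.cons a6_21 (MLL.cons a6_22
  (MLL.cons a6_23 (MLL.cons a6_24 (MLL.cons a6_25 (MLL.cons a6_26 (MLL.cons a6_27 (MLL.cons
  a6_28 (MLL.cons a6_29 (MLL.cons a6_30 (MLL.cons a6_31 (MLL.cons a6_32 (MLL.cons a6_33
  (MLL.cons a6_34 (MLL.cons a6_35 (MLL.cons a6_36 (MLL.cons a6_37 (MLL.cons a6_38 (MLL.cons
  a6_39 (MLL.cons a6_40 (MLL.cons a6_41 (MLL.cons a6_42 (MLL.cons a6_43 (MLL.cons a6_44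
  (MLL.cons a6_45 (MLL.cons a6_46 (MLL.cons a6_47 (MLL.cons a6_48 (MLL.cons a6_49 (MLL.cons
  a6_50 (MLL.cons a6_51 (MLL.cons a6_52 (MLL.cons a6_53 (MLL.cons a6_54 (MLL.cons a6_55
  (MLL.cons a6_56 (MLL.cons a6_57 (MLL.cons a6_58 (MLL.cons a6_59 (MLL.cons a6_60 (MLL.cons
  a6_61 (MLL.cons a6_62 (MLL.cons a6_63 (MLL.cons a6_64 (MLL.cons a6_65 (MLL.cons a6_66
  (MLL.cons a6_67 (MLL.cons a6_68 (MLL.cons a6_69 (MLL.cons a6_70 (MLL.cons a6_71 (MLL.cons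
  a6_72 (MLL.cons a6_73 (MLL.cons a6_74 (MLL.cons a6_75 (MLL.cons a6_76 (MLL.cons a6_77
  (MLL.cons a6_78 (MLL.cons a6_79 (MLL.cons a6_80 (MLL.cons a6_81 (MLL.cons a6_82 (MLL.cons
  a6_83 (MLL.cons a6_84 (MLL.cons a6_85 (MLL.cons a6_86 (MLL.cons a6_87 (MLL.cons a6_88
  (MLL.cons a6_89 (MLL.cons a6_90
  MLL.nil)))))))))))))))))))))))))))))))))))))))))))))))))))))))))))))))))))))))))))))))))))))))))))

end Vale.Agent.P236JL.D
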