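import Vale.Agent.P236JL.D.A7x0

/-!
# P236JL / D : index of tables (generated)
-/

set_option maxRecDepth 100000

namespace Vale.Agent.P236JL.D

open Vale.Agent.P236KE Vale.Agent.P236JK

noncomputable def lo7 : MLL :=
  (MLL.cons a7_0 (MLL.cons a7_1 (MLL.cons a7_2 (MLL.cons a7_3 (MLL.cons a7_4 (MLL.cons a7_5
  (MLL.cons a7_6 (MLL.cons a7_7 (MLL.cons a7_8 (MLL.cons a7_9 (MLL.cons a7_10 (MLL.cons a7_11
  (MLL.cons a7_12 (MLL.cons a7_13 (MLL.cons a7_14 (MLL.cons a7_15 (MLL.cons a7_16 (MLL.cons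
  a7_17 (MLL.cons a7_18 (MLL.cons a7_19 (MLL.cons a7_20 (MLL.cons a7_21 (MLL.cons a7_22
  (MLL.cons a7_23 (MLL.cons a7_24 (MLL.cons a7_25 (MLL.cons a7_26 (MLL.cons a7_27 (MLL.cons
  a7_28 (MLL.cons a7_29 (MLL.cons a7_30 (MLL.cons a7_31 (MLL.cons a7_32 (MLL.cons a7_33
  (MLL.cons a7_34 (MLL.cons a7_35 (MLL.cons a7_36 (MLL.cons a7_37 (MLL.cons a7_38 (MLL.cons
  a7_39 (MLL.cons a7_40 (MLL.cons a7_41 (MLL.cons a7_42 (MLL.cons a7_43 (MLL.cons a7_44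
  (MLL.cons a7_45 (MLL.cons a7_46 (MLL.cons a7_47 (MLL.cons a7_48 (MLL.cons a7_49 (MLL.cons
  a7_50 (MLL.cons a7_51 (MLL.cons a7_52 (MLL.cons a7_53 (MLL.cons a7_54 (MLL.cons a7_55
  (MLL.cons a7_56 (MLL.cons a7_57 (MLL.cons a7_58 (MLL.cons a7_59 (MLL.cons a7_60 (MLL.cons
  a7_61 (MLL.cons a7_62 (MLL.cons a7_63 (MLL.cons a7_64 (MLL.cons a7_65 (MLL.cons a7_66
  (MLL.cons a7_67 (MLL.cons a7_68 (MLL.cons a7_69 (MLL.cons a7_70 (MLL.cons a7_71 (MLL.cons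
  a7_72 (MLL.cons a7_73 (MLL.cons a7_74 (MLL.cons a7_75 (MLL.cons a7_76 (MLL.cons a7_77
  (MLL.cons a7_78 (MLL.cons a7_79 (MLL.cons a7_80 (MLL.cons a7_81 (MLL.cons a7_82 (MLL.cons
  a7_83 (MLL.cons a7_84 (MLL.cons a7_85 (MLL.cons a7_86 (MLL.cons a7_87 (MLL.cons a7_88
  (MLL.cons a7_89 (MLL.cons a7_90
  MLL.nil)))))))))))))))))))))))))))))))))))))))))))))))))))))))))))))))))))))))))))))))))))))))))))

end Vale.Agent.P236JL.D
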