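import Vale.Agent.P236JL.D.A8x0

/-!
# P236JL / D : index of tables (generated)
-/

set_option maxRecDepth 100000

namespace Vale.Agent.P236JL.D

open Vale.Agent.P236KE Vale.Agent.P236JK

noncomputable def lo8 : MLL :=
  (MLL.cons a8_0 (MLL.cons a8_1 (MLL.cons a8_2 (MLL.cons a8_3 (MLL.cons a8_4 (MLL.cons a8_5
  (MLL.cons a8_6 (MLL.cons a8_7 (MLL.cons a8_8 (MLL.cons a8_9 (MLL.cons a8_10 (MLL.cons a8_11
  (MLL.cons a8_12 (MLL.cons a8_13 (MLL.cons a8_14 (MLL.cons a8_15 (MLL.cons a8_16 (MLL.cons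
  a8_17 (MLL.cons a8_18 (MLL.cons a8_19 (MLL.cons a8_20 (MLL.cons a8_21 (MLL.cons a8_22
  (MLL.cons a8_23 (MLL.cons a8_24 (MLL.cons a8_25 (MLL.cons a8_26 (MLL.cons a8_27 (MLL.cons
  a8_28 (MLL.cons a8_29 (MLL.cons a8_30 (MLL.cons a8_31 (MLL.cons a8_32 (MLL.cons a8_33
  (MLL.cons a8_34 (MLL.cons a8_35 (MLL.cons a8_36 (MLL.cons a8_37 (MLL.cons a8_38 (MLL.cons
  a8_39 (MLL.cons a8_40 (MLL.cons a8_41 (MLL.cons a8_42 (MLL.cons a8_43 (MLL.cons a8_44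
  (MLL.cons a8_45 (MLL.cons a8_46 (MLL.cons a8_47 (MLL.cons a8_48 (MLL.cons a8_49 (MLL.cons
  a8_50 (MLL.cons a8_51 (MLL.cons a8_52 (MLL.cons a8_53 (MLL.cons a8_54 (MLL.cons a8_55
  (MLL.cons a8_56 (MLL.cons a8_57 (MLL.cons a8_58 (MLL.cons a8_59 (MLL.cons a8_60 (MLL.cons
  a8_61 (MLL.cons a8_62 (MLL.cons a8_63 (MLL.cons a8_64 (MLL.cons a8_65 (MLL.cons a8_66
  (MLL.cons a8_67 (MLL.cons a8_68 (MLL.cons a8_69 (MLL.cons a8_70 (MLL.cons a8_71 (MLL.cons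
  a8_72 (MLL.cons a8_73 (MLL.cons a8_74 (MLL.cons a8_75 (MLL.cons a8_76 (MLL.cons a8_77
  (MLL.cons a8_78 (MLL.cons a8_79 (MLL.cons a8_80 (MLL.cons a8_81 (MLL.cons a8_82 (MLL.cons
  a8_83 (MLL.cons a8_84 (MLL.cons a8_85 (MLL.cons a8_86 (MLL.cons a8_87 (MLL.cons a8_88
  (MLL.cons a8_89 (MLL.cons a8_90
  MLL.nil)))))))))))))))))))))))))))))))))))))))))))))))))))))))))))))))))))))))))))))))))))))))))))

end Vale.Agent.P236JL.D
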