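import Vale.Agent.P236JL.D.A9x0

/-!
# P236JL / D : index of tables (generated)
-/

set_option maxRecDepth 100000

namespace Vale.Agent.P236JL.D

open Vale.Agent.P236KE Vale.Agent.P236JK

noncomputable def lo9 : MLL :=
  (MLL.cons a9_0 (MLL.cons a9_1 (MLL.cons a9_2 (MLL.cons a9_3 (MLL.cons a9_4 (MLL.cons a9_5
  (MLL.cons a9_6 (MLL.cons a9_7 (MLL.cons a9_8 (MLL.cons a9_9 (MLL.cons a9_10 (MLL.cons a9_11
  (MLL.cons a9_12 (MLL.cons a9_13 (MLL.cons a9_14 (MLL.cons a9_15 (MLL.cons a9_16 (MLL.cons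
  a9_17 (MLL.cons a9_18 (MLL.cons a9_19 (MLL.cons a9_20 (MLL.cons a9_21 (MLL.cons a9_22
  (MLL.cons a9_23 (MLL.cons a9_24 (MLL.cons a9_25 (MLL.cons a9_26 (MLL.cons a9_27 (MLL.cons
  a9_28 (MLL.cons a9_29 (MLL.cons a9_30 (MLL.cons a9_31 (MLL.cons a9_32 (MLL.cons a9_33
  (MLL.cons a9_34 (MLL.cons a9_35 (MLL.cons a9_36 (MLL.cons a9_37 (MLL.cons a9_38 (MLL.cons
  a9_39 (MLL.cons a9_40 (MLL.cons a9_41 (MLL.cons a9_42 (MLL.cons a9_43 (MLL.cons a9_44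
  (MLL.cons a9_45 (MLL.cons a9_46 (MLL.cons a9_47 (MLL.cons a9_48 (MLL.cons a9_49 (MLL.cons
  a9_50 (MLL.cons a9_51 (MLL.cons a9_52 (MLL.cons a9_53 (MLL.cons a9_54 (MLL.cons a9_55
  (MLL.cons a9_56 (MLL.cons a9_57 (MLL.cons a9_58 (MLL.cons a9_59 (MLL.cons a9_60 (MLL.cons
  a9_61 (MLL.cons a9_62 (MLL.cons a9_63 (MLL.cons a9_64 (MLL.cons a9_65 (MLL.cons a9_66
  (MLL.cons a9_67 (MLL.cons a9_68 (MLL.cons a9_69 (MLL.cons a9_70 (MLL.cons a9_71 (MLL.cons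
  a9_72 (MLL.cons a9_73 (MLL.cons a9_74 (MLL.cons a9_75 (MLL.cons a9_76 (MLL.cons a9_77
  (MLL.cons a9_78 (MLL.cons a9_79 (MLL.cons a9_80 (MLL.cons a9_81 (MLL.cons a9_82 (MLL.cons
  a9_83 (MLL.cons a9_84 (MLL.cons a9_85 (MLL.cons a9_86 (MLL.cons a9_87 (MLL.cons a9_88
  (MLL.cons a9_89 (MLL.cons a9_90
  MLL.nil)))))))))))))))))))))))))))))))))))))))))))))))))))))))))))))))))))))))))))))))))))))))))))

end Vale.Agent.P236JL.D
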