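import Vale.Agent.P236JL.D.T1x0

/-!
# P236JL / D : index of tables (generated)
-/

set_option maxRecDepth 100000

namespace Vale.Agent.P236JL.D

open Vale.Agent.P236KE Vale.Agent.P236JK

noncomputable def up1 : DTL :=
  (DTL.cons t1_0 (DTL.cons t1_1 (DTL.cons t1_2 (DTL.cons t1_3 (DTL.cons t1_4 DTL.nil)))))

end Vale.Agent.P236JL.D
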