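import Vale.Agent.P236JL.D.T11x0
import Vale.Agent.P236JL.D.T11x1

/-!
# P236JL / D : index of tables (generated)
-/

set_option maxRecDepth 100000

namespace Vale.Agent.P236JL.D

open Vale.Agent.P236KE Vale.Agent.P236JK

noncomputable def up11 : DTL :=
  (DTL.cons t11_0 (DTL.cons t11_1 (DTL.cons t11_2 (DTL.cons t11_3 (DTL.cons t11_4 (DTL.cons
  t11_5 (DTL.cons t11_6 (DTL.cons t11_7 (DTL.cons t11_8 (DTL.cons t11_9 (DTL.cons t11_10
  (DTL.cons t11_11 (DTL.cons t11_12 (DTL.cons t11_13 (DTL.cons t11_14 (DTL.cons t11_15 (DTL.cons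
  t11_16 (DTL.cons t11_17 (DTL.cons t11_18 (DTL.cons t11_19 (DTL.cons t11_20 (DTL.cons t11_21
  (DTL.cons t11_22 (DTL.cons t11_23 (DTL.cons t11_24 (DTL.cons t11_25 (DTL.cons t11_26 (DTL.cons
  t11_27 (DTL.cons t11_28 (DTL.cons t11_29 (DTL.cons t11_30 (DTL.cons t11_31 (DTL.cons t11_32
  (DTL.cons t11_33 (DTL.cons t11_34 (DTL.cons t11_35 (DTL.cons t11_36 (DTL.cons t11_37 (DTL.cons
  t11_38 (DTL.cons t11_39 (DTL.cons t11_40 (DTL.cons t11_41 (DTL.cons t11_42 (DTL.cons t11_43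
  DTL.nil))))))))))))))))))))))))))))))))))))))))))))

end Vale.Agent.P236JL.D
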