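import Vale.Agent.P236JL.D.T12x0

/-!
# P236JL / D : index of tables (generated)
-/

set_option maxRecDepth 100000

namespace Vale.Agent.P236JL.D

open Vale.Agent.P236KE Vale.Agent.P236JK

noncomputable def up12 : DTL :=
  (DTL.cons t12_0 (DTL.cons t12_1 (DTL.cons t12_2 (DTL.cons t12_3 (DTL.cons t12_4 (DTL.cons
  t12_5 (DTL.cons t12_6 (DTL.cons t12_7 (DTL.cons t12_8 (DTL.cons t12_9 (DTL.cons t12_10
  (DTL.cons t12_11 (DTL.cons t12_12 (DTL.cons t12_13 (DTL.cons t12_14 (DTL.cons t12_15 (DTL.cons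
  t12_16 (DTL.cons t12_17 (DTL.cons t12_18 (DTL.cons t12_19 (DTL.cons t12_20 (DTL.cons t12_21
  (DTL.cons t12_22 (DTL.cons t12_23 (DTL.cons t12_24 (DTL.cons t12_25 (DTL.cons t12_26 (DTL.cons
  t12_27 (DTL.cons t12_28 (DTL.cons t12_29 (DTL.cons t12_30 (DTL.cons t12_31 (DTL.cons t12_32
  (DTL.cons t12_33 (DTL.cons t12_34 (DTL.cons t12_35 (DTL.cons t12_36 (DTL.cons t12_37 (DTL.cons
  t12_38 (DTL.cons t12_39 DTL.nil))))))))))))))))))))))))))))))))))))))))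

end Vale.Agent.P236JL.D
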