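import Vale.Agent.P236JL.D.T13x0

/-!
# P236JL / D : index of tables (generated)
-/

set_option maxRecDepth 100000

namespace Vale.Agent.P236JL.D

open Vale.Agent.P236KE Vale.Agent.P236JK

noncomputable def up13 : DTL :=
  (DTL.cons t13_0 (DTL.cons t13_1 (DTL.cons t13_2 (DTL.cons t13_3 (DTL.cons t13_4 (DTL.cons
  t13_5 (DTL.cons t13_6 (DTL.cons t13_7 (DTL.cons t13_8 (DTL.cons t13_9 (DTL.cons t13_10
  (DTL.cons t13_11 (DTL.cons t13_12 (DTL.cons t13_13 (DTL.cons t13_14 (DTL.cons t13_15 (DTL.cons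
  t13_16 (DTL.cons t13_17 (DTL.cons t13_18 (DTL.cons t13_19 (DTL.cons t13_20 (DTL.cons t13_21
  (DTL.cons t13_22 (DTL.cons t13_23 (DTL.cons t13_24 (DTL.cons t13_25 (DTL.cons t13_26 (DTL.cons
  t13_27 (DTL.cons t13_28 (DTL.cons t13_29 (DTL.cons t13_30 (DTL.cons t13_31 (DTL.cons t13_32
  (DTL.cons t13_33 DTL.nil))))))))))))))))))))))))))))))))))

end Vale.Agent.P236JL.D
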