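import Vale.Agent.P236JL.D.T14x0

/-!
# P236JL / D : index of tables (generated)
-/

set_option maxRecDepth 100000

namespace Vale.Agent.P236JL.D

open Vale.Agent.P236KE Vale.Agent.P236JK

noncomputable def up14 : DTL :=
  (DTL.cons t14_0 (DTL.cons t14_1 (DTL.cons t14_2 (DTL.cons t14_3 (DTL.cons t14_4 (DTL.cons
  t14_5 (DTL.cons t14_6 (DTL.cons t14_7 (DTL.cons t14_8 (DTL.cons t14_9 (DTL.cons t14_10
  (DTL.cons t14_11 (DTL.cons t14_12 (DTL.cons t14_13 (DTL.cons t14_14 (DTL.cons t14_15 (DTL.cons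
  t14_16 (DTL.cons t14_17 (DTL.cons t14_18 (DTL.cons t14_19 (DTL.cons t14_20 (DTL.cons t14_21
  (DTL.cons t14_22 (DTL.cons t14_23 (DTL.cons t14_24 (DTL.cons t14_25 (DTL.cons t14_26 (DTL.cons
  t14_27 (DTL.cons t14_28 (DTL.cons t14_29 (DTL.cons t14_30 (DTL.cons t14_31
  DTL.nil))))))))))))))))))))))))))))))))

end Vale.Agent.P236JL.D
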