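import Vale.Agent.P236JL.D.T15x0

/-!
# P236JL / D : index of tables (generated)
-/

set_option maxRecDepth 100000

namespace Vale.Agent.P236JL.D

open Vale.Agent.P236KE Vale.Agent.P236JK

noncomputable def up15 : DTL :=
  (DTL.cons t15_0 (DTL.cons t15_1 (DTL.cons t15_2 (DTL.cons t15_3 (DTL.cons t15_4 (DTL.cons
  t15_5 (DTL.cons t15_6 (DTL.cons t15_7 (DTL.cons t15_8 (DTL.cons t15_9 (DTL.cons t15_10
  (DTL.cons t15_11 (DTL.cons t15_12 (DTL.cons t15_13 (DTL.cons t15_14 (DTL.cons t15_15 (DTL.cons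
  t15_16 (DTL.cons t15_17 (DTL.cons t15_18 (DTL.cons t15_19 (DTL.cons t15_20 (DTL.cons t15_21
  (DTL.cons t15_22 (DTL.cons t15_23 (DTL.cons t15_24 (DTL.cons t15_25 (DTL.cons t15_26 (DTL.cons
  t15_27 (DTL.cons t15_28 DTL.nil)))))))))))))))))))))))))))))

end Vale.Agent.P236JL.D
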