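import Vale.Agent.P236JL.D.T16x0

/-!
# P236JL / D : index of tables (generated)
-/

set_option maxRecDepth 100000

namespace Vale.Agent.P236JL.D

open Vale.Agent.P236KE Vale.Agent.P236JK

noncomputable def up16 : DTL :=
  (DTL.cons t16_0 (DTL.cons t16_1 (DTL.cons t16_2 (DTL.cons t16_3 (DTL.cons t16_4 (DTL.cons
  t16_5 (DTL.cons t16_6 (DTL.cons t16_7 (DTL.cons t16_8 (DTL.cons t16_9 (DTL.cons t16_10
  (DTL.cons t16_11 (DTL.cons t16_12 (DTL.cons t16_13 (DTL.cons t16_14 (DTL.cons t16_15 (DTL.cons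
  t16_16 (DTL.cons t16_17 (DTL.cons t16_18 (DTL.cons t16_19 (DTL.cons t16_20 (DTL.cons t16_21
  (DTL.cons t16_22 (DTL.cons t16_23 (DTL.cons t16_24 (DTL.cons t16_25
  DTL.nil))))))))))))))))))))))))))

end Vale.Agent.P236JL.D
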