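import Vale.Agent.P236JL.D.T17x0

/-!
# P236JL / D : index of tables (generated)
-/

set_option maxRecDepth 100000

namespace Vale.Agent.P236JL.D

open Vale.Agent.P236KE Vale.Agent.P236JK

noncomputable def up17 : DTL :=
  (DTL.cons t17_0 (DTL.cons t17_1 (DTL.cons t17_2 (DTL.cons t17_3 (DTL.cons t17_4 (DTL.cons
  t17_5 (DTL.cons t17_6 (DTL.cons t17_7 (DTL.cons t17_8 (DTL.cons t17_9 (DTL.cons t17_10
  (DTL.cons t17_11 (DTL.cons t17_12 (DTL.cons t17_13 (DTL.cons t17_14 (DTL.cons t17_15 (DTL.cons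
  t17_16 (DTL.cons t17_17 (DTL.cons t17_18 (DTL.cons t17_19 (DTL.cons t17_20 (DTL.cons t17_21
  (DTL.cons t17_22 (DTL.cons t17_23 DTL.nil))))))))))))))))))))))))

end Vale.Agent.P236JL.D
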