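import Vale.Agent.P236JL.D.T2x0

/-!
# P236JL / D : index of tables (generated)
-/

set_option maxRecDepth 100000

namespace Vale.Agent.P236JL.D

open Vale.Agent.P236KE Vale.Agent.P236JK

noncomputable def up2 : DTL :=
  (DTL.cons t2_0 (DTL.cons t2_1 (DTL.cons t2_2 (DTL.cons t2_3 (DTL.cons t2_4 (DTL.cons t2_5
  (DTL.cons t2_6 (DTL.cons t2_7 (DTL.cons t2_8 (DTL.cons t2_9 (DTL.cons t2_10 (DTL.cons t2_11
  (DTL.cons t2_12 (DTL.cons t2_13 (DTL.cons t2_14 (DTL.cons t2_15 DTL.nil))))))))))))))))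

end Vale.Agent.P236JL.D
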