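import Vale.Agent.P236JL.D.T3x0
import Vale.Agent.P236JL.D.T3x1

/-!
# P236JL / D : index of tables (generated)
-/

set_option maxRecDepth 100000

namespace Vale.Agent.P236JL.D

open Vale.Agent.P236KE Vale.Agent.P236JK

noncomputable def up3 : DTL :=
  (DTL.cons t3_0 (DTL.cons t3_1 (DTL.cons t3_2 (DTL.cons t3_3 (DTL.cons t3_4 (DTL.cons t3_5
  (DTL.cons t3_6 (DTL.cons t3_7 (DTL.cons t3_8 (DTL.cons t3_9 (DTL.cons t3_10 (DTL.cons t3_11
  (DTL.cons t3_12 (DTL.cons t3_13 (DTL.cons t3_14 (DTL.cons t3_15 (DTL.cons t3_16 (DTL.cons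
  t3_17 (DTL.cons t3_18 (DTL.cons t3_19 (DTL.cons t3_20 (DTL.cons t3_21 (DTL.cons t3_22
  (DTL.cons t3_23 (DTL.cons t3_24 (DTL.cons t3_25 (DTL.cons t3_26 (DTL.cons t3_27 (DTL.cons
  t3_28 (DTL.cons t3_29 (DTL.cons t3_30 DTL.nil)))))))))))))))))))))))))))))))

end Vale.Agent.P236JL.D
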