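import Vale.Agent.P236JL.D.T4x0
import Vale.Agent.P236JL.D.T4x1
import Vale.Agent.P236JL.D.T4x2

/-!
# P236JL / D : index of tables (generated)
-/

set_option maxRecDepth 100000

namespace Vale.Agent.P236JL.D

open Vale.Agent.P236KE Vale.Agent.P236JK

noncomputable def up4 : DTL :=
  (DTL.cons t4_0 (DTL.cons t4_1 (DTL.cons t4_2 (DTL.cons t4_3 (DTL.cons t4_4 (DTL.cons t4_5
  (DTL.cons t4_6 (DTL.cons t4_7 (DTL.cons t4_8 (DTL.cons t4_9 (DTL.cons t4_10 (DTL.cons t4_11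
  (DTL.cons t4_12 (DTL.cons t4_13 (DTL.cons t4_14 (DTL.cons t4_15 (DTL.cons t4_16 (DTL.cons
  t4_17 (DTL.cons t4_18 (DTL.cons t4_19 (DTL.cons t4_20 (DTL.cons t4_21 (DTL.cons t4_22
  (DTL.cons t4_23 (DTL.cons t4_24 (DTL.cons t4_25 (DTL.cons t4_26 (DTL.cons t4_27 (DTL.cons
  t4_28 (DTL.cons t4_29 (DTL.cons t4_30 (DTL.cons t4_31 (DTL.cons t4_32 (DTL.cons t4_33
  (DTL.cons t4_34 (DTL.cons t4_35 (DTL.cons t4_36 (DTL.cons t4_37 (DTL.cons t4_38 (DTL.cons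
  t4_39 (DTL.cons t4_40 DTL.nil)))))))))))))))))))))))))))))))))))))))))

end Vale.Agent.P236JL.D
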