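import Vale.Agent.P236JL.D.T5x0
import Vale.Agent.P236JL.D.T5x1
import Vale.Agent.P236JL.D.T5x2

/-!
# P236JL / D : index of tables (generated)
-/

set_option maxRecDepth 100000

namespace Vale.Agent.P236JL.D

open Vale.Agent.P236KE Vale.Agent.P236JK

noncomputable def up5 : DTL :=
  (DTL.cons t5_0 (DTL.cons t5_1 (DTL.cons t5_2 (DTL.cons t5_3 (DTL.cons t5_4 (DTL.cons t5_5
  (DTL.cons t5_6 (DTL.cons t5_7 (DTL.cons t5_8 (DTL.cons t5_9 (DTL.cons t5_10 (DTL.cons t5_11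
  (DTL.cons t5_12 (DTL.cons t5_13 (DTL.cons t5_14 (DTL.cons t5_15 (DTL.cons t5_16 (DTL.cons
  t5_17 (DTL.cons t5_18 (DTL.cons t5_19 (DTL.cons t5_20 (DTL.cons t5_21 (DTL.cons t5_22
  (DTL.cons t5_23 (DTL.cons t5_24 (DTL.cons t5_25 (DTL.cons t5_26 (DTL.cons t5_27 (DTL.cons
  t5_28 (DTL.cons t5_29 (DTL.cons t5_30 (DTL.cons t5_31 (DTL.cons t5_32 (DTL.cons t5_33
  (DTL.cons t5_34 (DTL.cons t5_35 (DTL.cons t5_36 (DTL.cons t5_37 (DTL.cons t5_38 (DTL.cons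
  t5_39 (DTL.cons t5_40 (DTL.cons t5_41 (DTL.cons t5_42 (DTL.cons t5_43 (DTL.cons t5_44
  DTL.nil)))))))))))))))))))))))))))))))))))))))))))))

end Vale.Agent.P236JL.D
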