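import Vale.Agent.P236JL.D.T6x0
import Vale.Agent.P236JL.D.T6x1

/-!
# P236JL / D : index of tables (generated)
-/

set_option maxRecDepth 100000

namespace Vale.Agent.P236JL.D

open Vale.Agent.P236KE Vale.Agent.P236JK

noncomputable def up6 : DTL :=
  (DTL.cons t6_0 (DTL.cons t6_1 (DTL.cons t6_2 (DTL.cons t6_3 (DTL.cons t6_4 (DTL.cons t6_5
  (DTL.cons t6_6 (DTL.cons t6_7 (DTL.cons t6_8 (DTL.cons t6_9 (DTL.cons t6_10 (DTL.cons t6_11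
  (DTL.cons t6_12 (DTL.cons t6_13 (DTL.cons t6_14 (DTL.cons t6_15 (DTL.cons t6_16 (DTL.cons
  t6_17 (DTL.cons t6_18 (DTL.cons t6_19 (DTL.cons t6_20 (DTL.cons t6_21 (DTL.cons t6_22
  (DTL.cons t6_23 (DTL.cons t6_24 (DTL.cons t6_25 (DTL.cons t6_26 (DTL.cons t6_27 (DTL.cons
  t6_28 (DTL.cons t6_29 (DTL.cons t6_30 (DTL.cons t6_31 (DTL.cons t6_32 (DTL.cons t6_33
  (DTL.cons t6_34 (DTL.cons t6_35 (DTL.cons t6_36 (DTL.cons t6_37 (DTL.cons t6_38 (DTL.cons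
  t6_39 (DTL.cons t6_40 (DTL.cons t6_41 (DTL.cons t6_42 (DTL.cons t6_43
  DTL.nil))))))))))))))))))))))))))))))))))))))))))))

end Vale.Agent.P236JL.D
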