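import Vale.Agent.P236JL.D.T7x0
import Vale.Agent.P236JL.D.T7x1

/-!
# P236JL / D : index of tables (generated)
-/

set_option maxRecDepth 100000

namespace Vale.Agent.P236JL.D

open Vale.Agent.P236KE Vale.Agent.P236JK

noncomputable def up7 : DTL :=
  (DTL.cons t7_0 (DTL.cons t7_1 (DTL.cons t7_2 (DTL.cons t7_3 (DTL.cons t7_4 (DTL.cons t7_5
  (DTL.cons t7_6 (DTL.cons t7_7 (DTL.cons t7_8 (DTL.cons t7_9 (DTL.cons t7_10 (DTL.cons t7_11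
  (DTL.cons t7_12 (DTL.cons t7_13 (DTL.cons t7_14 (DTL.cons t7_15 (DTL.cons t7_16 (DTL.cons
  t7_17 (DTL.cons t7_18 (DTL.cons t7_19 (DTL.cons t7_20 (DTL.cons t7_21 (DTL.cons t7_22
  (DTL.cons t7_23 (DTL.cons t7_24 (DTL.cons t7_25 (DTL.cons t7_26 (DTL.cons t7_27 (DTL.cons
  t7_28 (DTL.cons t7_29 (DTL.cons t7_30 (DTL.cons t7_31 (DTL.cons t7_32 (DTL.cons t7_33
  (DTL.cons t7_34 (DTL.cons t7_35 (DTL.cons t7_36 (DTL.cons t7_37 (DTL.cons t7_38 (DTL.cons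
  t7_39 (DTL.cons t7_40 DTL.nil)))))))))))))))))))))))))))))))))))))))))

end Vale.Agent.P236JL.D
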