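import Vale.Agent.P236JL.D.T8x0
import Vale.Agent.P236JL.D.T8x1

/-!
# P236JL / D : index of tables (generated)
-/

set_option maxRecDepth 100000

namespace Vale.Agent.P236JL.D

open Vale.Agent.P236KE Vale.Agent.P236JK

noncomputable def up8 : DTL :=
  (DTL.cons t8_0 (DTL.cons t8_1 (DTL.cons t8_2 (DTL.cons t8_3 (DTL.cons t8_4 (DTL.cons t8_5
  (DTL.cons t8_6 (DTL.cons t8_7 (DTL.cons t8_8 (DTL.cons t8_9 (DTL.cons t8_10 (DTL.cons t8_11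
  (DTL.cons t8_12 (DTL.cons t8_13 (DTL.cons t8_14 (DTL.cons t8_15 (DTL.cons t8_16 (DTL.cons
  t8_17 (DTL.cons t8_18 (DTL.cons t8_19 (DTL.cons t8_20 (DTL.cons t8_21 (DTL.cons t8_22
  (DTL.cons t8_23 (DTL.cons t8_24 (DTL.cons t8_25 (DTL.cons t8_26 (DTL.cons t8_27 (DTL.cons
  t8_28 (DTL.cons t8_29 (DTL.cons t8_30 (DTL.cons t8_31 (DTL.cons t8_32 (DTL.cons t8_33
  (DTL.cons t8_34 (DTL.cons t8_35 (DTL.cons t8_36 (DTL.cons t8_37 (DTL.cons t8_38 (DTL.cons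
  t8_39 DTL.nil))))))))))))))))))))))))))))))))))))))))

end Vale.Agent.P236JL.D
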