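import Vale.Agent.P236JL.D.T9x0
import Vale.Agent.P236JL.D.T9x1

/-!
# P236JL / D : index of tables (generated)
-/

set_option maxRecDepth 100000

namespace Vale.Agent.P236JL.D

open Vale.Agent.P236KE Vale.Agent.P236JK

noncomputable def up9 : DTL :=
  (DTL.cons t9_0 (DTL.cons t9_1 (DTL.cons t9_2 (DTL.cons t9_3 (DTL.cons t9_4 (DTL.cons t9_5
  (DTL.cons t9_6 (DTL.cons t9_7 (DTL.cons t9_8 (DTL.cons t9_9 (DTL.cons t9_10 (DTL.cons t9_11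
  (DTL.cons t9_12 (DTL.cons t9_13 (DTL.cons t9_14 (DTL.cons t9_15 (DTL.cons t9_16 (DTL.cons
  t9_17 (DTL.cons t9_18 (DTL.cons t9_19 (DTL.cons t9_20 (DTL.cons t9_21 (DTL.cons t9_22
  (DTL.cons t9_23 (DTL.cons t9_24 (DTL.cons t9_25 (DTL.cons t9_26 (DTL.cons t9_27 (DTL.cons
  t9_28 (DTL.cons t9_29 (DTL.cons t9_30 (DTL.cons t9_31 (DTL.cons t9_32 (DTL.cons t9_33
  (DTL.cons t9_34 (DTL.cons t9_35 (DTL.cons t9_36 (DTL.cons t9_37 (DTL.cons t9_38 (DTL.cons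
  t9_39 (DTL.cons t9_40 (DTL.cons t9_41 (DTL.cons t9_42
  DTL.nil)))))))))))))))))))))))))))))))))))))))))))

end Vale.Agent.P236JL.D
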