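import Vale.Agent.P236JL.D.A13x0

/-!
# P236JL / D : index of tables (generated)
-/

set_option maxRecDepth 100000

namespace Vale.Agent.P236JL.D

open Vale.Agent.P236KE Vale.Agent.P236JK

noncomputable def lo13 : MLL :=
  (MLL.cons a13_0 (MLL.cons a13_1 (MLL.cons a13_2 (MLL.cons a13_3 (MLL.cons a13_4 (MLL.cons
  a13_5 (MLL.cons a13_6 (MLL.cons a13_7 (MLL.cons a13_8 (MLL.cons a13_9 (MLL.cons a13_10
  (MLL.cons a13_11 (MLL.cons a13_12 (MLL.cons a13_13 (MLL.cons a13_14 (MLL.cons a13_15 (MLL.cons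
  a13_16 (MLL.cons a13_17 (MLL.cons a13_18 (MLL.cons a13_19 (MLL.cons a13_20 (MLL.cons a13_21
  (MLL.cons a13_22 (MLL.cons a13_23 (MLL.cons a13_24 (MLL.cons a13_25 (MLL.cons a13_26 (MLL.cons
  a13_27 (MLL.cons a13_28 (MLL.cons a13_29 (MLL.cons a13_30 (MLL.cons a13_31 (MLL.cons a13_32
  (MLL.cons a13_33 (MLL.cons a13_34 (MLL.cons a13_35 (MLL.cons a13_36 (MLL.cons a13_37 (MLL.cons
  a13_38 (MLL.cons a13_39 (MLL.cons a13_40 (MLL.cons a13_41 (MLL.cons a13_42 (MLL.cons a13_43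
  (MLL.cons a13_44 (MLL.cons a13_45 (MLL.cons a13_46 (MLL.cons a13_47 (MLL.cons a13_48 (MLL.cons
  a13_49 (MLL.cons a13_50 (MLL.cons a13_51 (MLL.cons a13_52 (MLL.cons a13_53 (MLL.cons a13_54
  (MLL.cons a13_55 (MLL.cons a13_56 (MLL.cons a13_57 (MLL.cons a13_58 (MLL.cons a13_59 (MLL.cons
  a13_60 (MLL.cons a13_61 (MLL.cons a13_62 (MLL.cons a13_63 (MLL.cons a13_64 (MLL.cons a13_65
  (MLL.cons a13_66 (MLL.cons a13_67 (MLL.cons a13_68 (MLL.cons a13_69 (MLL.cons a13_70 (MLL.cons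
  a13_71 (MLL.cons a13_72 (MLL.cons a13_73 (MLL.cons a13_74 (MLL.cons a13_75 (MLL.cons a13_76
  (MLL.cons a13_77 (MLL.cons a13_78 (MLL.cons a13_79 (MLL.cons a13_80 (MLL.cons a13_81 (MLL.cons
  a13_82 (MLL.cons a13_83 (MLL.cons a13_84 (MLL.cons a13_85 (MLL.cons a13_86 (MLL.cons a13_87
  (MLL.cons a13_88 (MLL.cons a13_89 (MLL.cons a13_90
  MLL.nil)))))))))))))))))))))))))))))))))))))))))))))))))))))))))))))))))))))))))))))))))))))))))))

end Vale.Agent.P236JL.D
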