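import Vale.Agent.P236JL.D.T10x0
import Vale.Agent.P236JL.D.T10x1

/-!
# P236JL / D : index of tables (generated)
-/

set_option maxRecDepth 100000

namespace Vale.Agent.P236JL.D

open Vale.Agent.P236KE Vale.Agent.P236JK

noncomputable def up10 : DTL :=
  (DTL.cons t10_0 (DTL.cons t10_1 (DTL.cons t10_2 (DTL.cons t10_3 (DTL.cons t10_4 (DTL.cons
  t10_5 (DTL.cons t10_6 (DTL.cons t10_7 (DTL.cons t10_8 (DTL.cons t10_9 (DTL.cons t10_10
  (DTL.cons t10_11 (DTL.cons t10_12 (DTL.cons t10_13 (DTL.cons t10_14 (DTL.cons t10_15 (DTL.cons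
  t10_16 (DTL.cons t10_17 (DTL.cons t10_18 (DTL.cons t10_19 (DTL.cons t10_20 (DTL.cons t10_21
  (DTL.cons t10_22 (DTL.cons t10_23 (DTL.cons t10_24 (DTL.cons t10_25 (DTL.cons t10_26 (DTL.cons
  t10_27 (DTL.cons t10_28 (DTL.cons t10_29 (DTL.cons t10_30 (DTL.cons t10_31 (DTL.cons t10_32
  (DTL.cons t10_33 (DTL.cons t10_34 (DTL.cons t10_35 (DTL.cons t10_36 (DTL.cons t10_37 (DTL.cons
  t10_38 (DTL.cons t10_39 (DTL.cons t10_40 (DTL.cons t10_41 (DTL.cons t10_42 (DTL.cons t10_43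
  DTL.nil))))))))))))))))))))))))))))))))))))))))))))

end Vale.Agent.P236JL.D
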