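import Vale.Agent.P236JK.Eng

/-!
# P236JL / D : tables (generated)
-/

set_option maxRecDepth 100000

namespace Vale.Agent.P236JL.D

open Vale.Agent.P236KE Vale.Agent.P236JK

noncomputable def a0_0 : ML := ML.nil

noncomputable def a0_1 : ML := (ML.cons (nat_lit 0) (nat_lit 0) (nat_lit 0) (nat_lit 0) (nat_lit 0)
  (nat_lit 0x1) (nat_lit 0)
  ML.nil)

noncomputable def a0_2 : ML := ML.nil

noncomputable def a0_3 : ML := (ML.cons (nat_lit 1) (nat_lit 0) (nat_lit 0) (nat_lit 0) (nat_lit 0)
  (nat_lit 0x1) (nat_lit 0)
  ML.nil)

noncomputable def a0_4 : ML := ML.nil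

noncomputable def a0_5 : ML := ML.nil

noncomputable def a0_6 : ML := ML.nil

noncomputable def a0_7 : ML := ML.nil

noncomputable def a0_8 : ML := ML.nil

noncomputable def a0_9 : ML := (ML.cons (nat_lit 2) (nat_lit 0) (nat_lit 0) (nat_lit 0) (nat_lit 0)
  (nat_lit 0x1) (nat_lit 0)
  ML.nil)

noncomputable def a0_10 : ML := ML.nil

noncomputable def a0_11 : ML := ML.nil

noncomputable def a0_12 : ML := ML.nil

noncomputable def a0_13 : ML := ML.nil

noncomputable def a0_14 : ML := ML.nil

noncomputable def a0_15 : ML := ML.nil

noncomputable def a0_16 : ML := ML.nil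

noncomputable def a0_17 : ML := ML.nil

noncomputable def a0_18 : ML := ML.nil

noncomputable def a0_19 : ML := ML.nil

noncomputable def a0_20 : ML := ML.nil

noncomputable def a0_21 : ML := ML.nil

noncomputable def a0_22 : ML := ML.nil

noncomputable def a0_23 : ML := ML.nil

noncomputable def a0_24 : ML := ML.nil

noncomputable def a0_25 : ML := ML.nil

noncomputable def a0_26 : ML := ML.nil

noncomputable def a0_27 : ML := (ML.cons (nat_lit 3) (nat_lit 0) (nat_lit 0) (nat_lit 0) (nat_lit 0)
  (nat_lit 0x1) (nat_lit 0)
  ML.nil)

noncomputable def a0_28 : ML := ML.nil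

noncomputable def a0_29 : ML := ML.nil

noncomputable def a0_30 : ML := ML.nil

noncomputable def a0_31 : ML := ML.nil

noncomputable def a0_32 : ML := ML.nil

noncomputable def a0_33 : ML := ML.nil

noncomputable def a0_34 : ML := ML.nil

noncomputable def a0_35 : ML := ML.nil

noncomputable def a0_36 : ML := ML.nil

noncomputable def a0_37 : ML := ML.nil

noncomputable def a0_38 : ML := ML.nil

noncomputable def a0_39 : ML := ML.nil

noncomputable def a0_40 : ML := ML.nil

noncomputable def a0_41 : ML := ML.nil

noncomputable def a0_42 : ML := ML.nil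

noncomputable def a0_43 : ML := ML.nil

noncomputable def a0_44 : ML := ML.nil

noncomputable def a0_45 : ML := ML.nil

noncomputable def a0_46 : ML := ML.nil

noncomputable def a0_47 : ML := ML.nil

noncomputable def a0_48 : ML := ML.nil

noncomputable def a0_49 : ML := ML.nil

noncomputable def a0_50 : ML := ML.nil

noncomputable def a0_51 : ML := ML.nil

noncomputable def a0_52 : ML := ML.nil

noncomputable def a0_53 : ML := ML.nil

noncomputable def a0_54 : ML := ML.nil

noncomputable def a0_55 : ML := ML.nil

noncomputable def a0_56 : ML := ML.nil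

noncomputable def a0_57 : ML := ML.nil

noncomputable def a0_58 : ML := ML.nil

noncomputable def a0_59 : ML := ML.nil

noncomputable def a0_60 : ML := ML.nil

noncomputable def a0_61 : ML := ML.nil

noncomputable def a0_62 : ML := ML.nil

noncomputable def a0_63 : ML := ML.nil

noncomputable def a0_64 : ML := ML.nil

noncomputable def a0_65 : ML := ML.nil

noncomputable def a0_66 : ML := ML.nil

noncomputable def a0_67 : ML := ML.nil

noncomputable def a0_68 : ML := ML.nil

noncomputable def a0_69 : ML := ML.nil

noncomputable def a0_70 : ML := ML.nil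

noncomputable def a0_71 : ML := ML.nil

noncomputable def a0_72 : ML := ML.nil

noncomputable def a0_73 : ML := ML.nil

noncomputable def a0_74 : ML := ML.nil

noncomputable def a0_75 : ML := ML.nil

noncomputable def a0_76 : ML := ML.nil

noncomputable def a0_77 : ML := ML.nil

noncomputable def a0_78 : ML := ML.nil

noncomputable def a0_79 : ML := ML.nil

noncomputable def a0_80 : ML := ML.nil

noncomputable def a0_81 : ML := (ML.cons (nat_lit 4) (nat_lit 0) (nat_lit 0) (nat_lit 0) (nat_lit 0)
  (nat_lit 0x1) (nat_lit 0)
  ML.nil)

noncomputable def a0_82 : ML := ML.nil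

noncomputable def a0_83 : ML := ML.nil

noncomputable def a0_84 : ML := ML.nil

noncomputable def a0_85 : ML := ML.nil

noncomputable def a0_86 : ML := ML.nil

noncomputable def a0_87 : ML := ML.nil

noncomputable def a0_88 : ML := ML.nil

noncomputable def a0_89 : ML := ML.nil

noncomputable def a0_90 : ML := ML.nil

end Vale.Agent.P236JL.D
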